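import Vale.Agent.P167.H452.BE.Defs
import Vale.Agent.P167.QB.FDefs

/-!
# P167, general `q`, block BETA: the remaining input of `QB.S_beta`

`S_pow`: (BETA) (1), only for fixed ratios of the radii and eventually in the scale; the constants
do not depend on the ratio.
-/

set_option autoImplicit false

namespace Vale.Agent.P167.H692.B

open Finset Vale.Agent.P167 Vale.Agent.P167.FK
open Vale.Agent.P167.H436.ND (Win Bp Ex0)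
open Vale.Agent.P167.H452.BE (XE R3 ta)

/-- **(BETA) (1)**: the functional of the three rings of radii `r / K`, `r`, `M ^ k r` around a flat
free point is `lam ^ k` up to constants which do not depend on `k`, for `k ≥ k₁` and `r` large. -/
def S_pow (θ : ℝ) (P : MeasureTheory.Measure Cfg) : Prop :=
  ∀ M : ℤ, 2 ≤ M → ∃ K1 : ℤ, ∀ K : ℤ, K1 ≤ K → ∃ (lam c C : ℝ) (k₁ : ℕ), 0 < lam ∧ 0 < c ∧ 0 < C ∧
  ∀ (k : ℕ) (L : ℤ), k₁ ≤ k → ∃ r₁ : ℤ, ∀ r : ℤ, r₁ ≤ r →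
  ∃ (n : ℕ) (q : ZMod n → ℤ × ℤ) (D : Finset (ℤ × ℤ)) (l : ℕ) (R : ℤ) (a : Fin 3 → ℤ)
    (f : Fin 3 → ℤ × ℤ → ℝ), Win q D l R ∧ R3 1 K R a ∧ a 1 = r ∧ a 2 = M ^ k * r ∧
    a 1 ≤ 2 * K * a 0 ∧ L * a 2 ≤ R ∧ (∀ i, Bp 1000 (q l) (a i) (f i)) ∧
    c * lam ^ k ≤ Ex (2 * Real.cos θ) D eta0 (XE θ q D f) * Real.exp (Ex0 θ P (ta θ) a) ∧
    Ex (2 * Real.cos θ) D eta0 (XE θ q D f) * Real.exp (Ex0 θ P (ta θ) a) ≤ C * lam ^ k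

/-- The same with constants which may depend on `L` (helper436). -/
def S_powL (θ : ℝ) (P : MeasureTheory.Measure Cfg) : Prop :=
  ∀ M : ℤ, 2 ≤ M → ∃ K1 : ℤ, ∀ K : ℤ, K1 ≤ K → ∀ L : ℤ, ∃ (lam c C : ℝ) (k₁ : ℕ), 0 < lam ∧ 0 < c ∧
  0 < C ∧ ∀ k : ℕ, k₁ ≤ k → ∃ r₁ : ℤ, ∀ r : ℤ, r₁ ≤ r →
  ∃ (n : ℕ) (q : ZMod n → ℤ × ℤ) (D : Finset (ℤ × ℤ)) (l : ℕ) (R : ℤ) (a : Fin 3 → ℤ)
    (f : Fin 3 → ℤ × ℤ → ℝ), Win q D l R ∧ R3 1 K R a ∧ a 1 = r ∧ a 2 = M ^ k * r ∧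
    a 1 ≤ 2 * K * a 0 ∧ L * a 2 ≤ R ∧ (∀ i, Bp 1000 (q l) (a i) (f i)) ∧
    c * lam ^ k ≤ Ex (2 * Real.cos θ) D eta0 (XE θ q D f) * Real.exp (Ex0 θ P (ta θ) a) ∧
    Ex (2 * Real.cos θ) D eta0 (XE θ q D f) * Real.exp (Ex0 θ P (ta θ) a) ≤ C * lam ^ k

theorem S_pow.L {θ : ℝ} {P : MeasureTheory.Measure Cfg} (h : S_pow θ P) : S_powL θ P := by
  intro M hM
  obtain ⟨K1, h⟩ := h M hM
  refine ⟨K1, fun K hK L => ?_⟩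
  obtain ⟨lam, c, C, k₁, h1, h2, h3, h4⟩ := h K hK
  exact ⟨lam, c, C, k₁, h1, h2, h3, fun k hk => h4 k L hk⟩

end Vale.Agent.P167.H692.B
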