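import Mathlib

/-!
# [BETA-REC] in windows

`rec_win`: the sum `D i j + ∑ s, P i s * D s j` is an exact power `lam ^ (j - i)` up to constants only
for `j - i ≤ K` (the constants do not depend on `K`); then `P i j ≤ C ^ 3 * (1 / 2) ^ m * D i j` for
`m * K ≤ j - i`.
-/

set_option autoImplicit false

namespace Vale.Agent.P167.H692.B

open Finset Filter

theorem rec0 {C : ℝ} (hC : 1 ≤ C) :
    ∃ (K0 : ℕ) (B : ℝ), 0 < B ∧ ∀ (M N : ℕ) (p d g : ℕ → ℕ → ℝ),
      (∀ i j, M ≤ i → i ≤ j → j ≤ N → 0 ≤ p i j) →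
      (∀ i j, M ≤ i → i ≤ j → j ≤ N → 0 ≤ d i j) →
      (∀ i j, M ≤ i → i ≤ j → j ≤ N → C⁻¹ ≤ g i j) →
      (∀ i j, M ≤ i → i ≤ j → j ≤ N → g i j ≤ C) →
      (∀ i j, M ≤ i → i ≤ j → j ≤ N → g i j ≤ C * (d i j + ∑ s ∈ Icc i j, p i s * d s j)) →
      (∀ i j, M ≤ i → i ≤ j → j ≤ N → ∑ s ∈ Icc i j, p i s * d s j ≤ C * g i j) →
      (∀ i s, M ≤ i → i ≤ s → s ≤ N → p i s ≤ C * d i s) →
      (∀ i s j, M ≤ i → i ≤ s → s ≤ j → j ≤ N → d i s * d s j ≤ C * d i j) →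
      (∀ i s j, M ≤ i → i ≤ s → s ≤ j → j ≤ N → p i j ≤ C * (p i s * p s j)) →
      (∀ k : ℕ, ∀ i j, M ≤ i → i + k * K0 ≤ j → j ≤ N → p i j ≤ B * (1 / 2) ^ k) ∧
      ∀ i j, M ≤ i → i ≤ j → j ≤ N → 1 ≤ 2 * C ^ 4 * ((j - i : ℕ) + 1) * d i j := by
  have hC0 : 0 < C := by linarith
  set B : ℝ := 2 * C ^ 6 with hB
  have hB0 : 0 < B := by positivity
  obtain ⟨K0, hK0⟩ : ∃ K0 : ℕ, 2 * C * B < ∑ k ∈ range (K0 + 1), 1 / ((k : ℝ) + 1) := by
    have h := (Real.tendsto_sum_range_one_div_nat_succ_atTop).comp (tendsto_add_atTop_nat 1)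
    obtain ⟨K0, h1⟩ := (h.eventually (eventually_gt_atTop (2 * C * B))).exists
    exact ⟨K0, h1⟩
  refine ⟨K0, B, hB0, ?_⟩
  intro M N p d g p0 d0 g1 g2 h2 h3 h4 h5 h6
  -- step A
  have hA : ∀ i j, M ≤ i → i ≤ j → j ≤ N → 1 ≤ 2 * C ^ 4 * ((j - i : ℕ) + 1) * d i j := by
    intro i j hi hij hj
    have hd := d0 i j hi hij hj
    have hsum : ∑ s ∈ Icc i j, p i s * d s j ≤ ((j - i : ℕ) + 1) * (C * (C * d i j)) := by
      have : ∑ s ∈ Icc i j, p i s * d s j ≤ ∑ _s ∈ Icc i j, C * (C * d i j) := by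
        refine Finset.sum_le_sum fun s hs => ?_
        rw [Finset.mem_Icc] at hs
        have a1 := h4 i s hi hs.1 (hs.2.trans hj)
        have a2 := d0 s j (hi.trans hs.1) hs.2 hj
        have a3 := h5 i s j hi hs.1 hs.2 hj
        calc p i s * d s j ≤ (C * d i s) * d s j := mul_le_mul_of_nonneg_right a1 a2
          _ = C * (d i s * d s j) := by ring
          _ ≤ C * (C * d i j) := mul_le_mul_of_nonneg_left a3 hC0.le
      refine this.trans (le_of_eq ?_)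
      rw [Finset.sum_const, Nat.card_Icc, nsmul_eq_mul]
      congr 1
      have : j + 1 - i = (j - i) + 1 := by omega
      rw [this]
      push_cast
      ring
    have k0 : (0 : ℝ) ≤ ((j - i : ℕ) : ℝ) := Nat.cast_nonneg _
    have hg := (g1 i j hi hij hj).trans (h2 i j hi hij hj)
    have hC1 : 1 ≤ C * (C * (d i j + ∑ s ∈ Icc i j, p i s * d s j)) := by
      have := mul_le_mul_of_nonneg_left hg hC0.le
      rwa [mul_inv_cancel₀ hC0.ne'] at this
    have h7 : C * (C * (d i j + ∑ s ∈ Icc i j, p i s * d s j))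
        ≤ C * (C * (d i j + ((j - i : ℕ) + 1) * (C * (C * d i j)))) := by
      gcongr
    have hCC : 1 ≤ C ^ 2 := one_le_pow₀ hC
    have h8 : d i j ≤ ((j - i : ℕ) + 1) * (C * (C * d i j)) := by
      have : (1 : ℝ) ≤ ((j - i : ℕ) + 1) * C ^ 2 := by
        nlinarith [mul_nonneg k0 (sq_nonneg C)]
      calc d i j = 1 * d i j := (one_mul _).symm
        _ ≤ (((j - i : ℕ) + 1) * C ^ 2) * d i j := mul_le_mul_of_nonneg_right this hd
        _ = _ := by ring
    have h9 : C * (C * (d i j + ((j - i : ℕ) + 1) * (C * (C * d i j))))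
        ≤ C * (C * (((j - i : ℕ) + 1) * (C * (C * d i j)) + ((j - i : ℕ) + 1) * (C * (C * d i j)))) := by
      gcongr
    calc (1 : ℝ) ≤ _ := hC1
      _ ≤ _ := h7
      _ ≤ _ := h9
      _ = 2 * C ^ 4 * ((j - i : ℕ) + 1) * d i j := by ring
  -- step B
  have hBs : ∀ i j, M ≤ i → i ≤ j → j ≤ N →
      ∑ s ∈ Icc i j, p i s * (1 / ((j - s : ℕ) + 1 : ℝ)) ≤ B := by
    intro i j hi hij hj
    have h1 : ∑ s ∈ Icc i j, p i s * (1 / ((j - s : ℕ) + 1 : ℝ))
        ≤ ∑ s ∈ Icc i j, 2 * C ^ 4 * (p i s * d s j) := by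
      refine Finset.sum_le_sum fun s hs => ?_
      rw [Finset.mem_Icc] at hs
      have a1 := p0 i s hi hs.1 (hs.2.trans hj)
      have a2 := hA s j (hi.trans hs.1) hs.2 hj
      have k0 : (0 : ℝ) < ((j - s : ℕ) : ℝ) + 1 := by positivity
      have a3 : 1 / ((j - s : ℕ) + 1 : ℝ) ≤ 2 * C ^ 4 * d s j := by
        rw [div_le_iff₀ k0]
        calc (1 : ℝ) ≤ _ := a2
          _ = _ := by ring
      calc p i s * (1 / ((j - s : ℕ) + 1 : ℝ)) ≤ p i s * (2 * C ^ 4 * d s j) :=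
            mul_le_mul_of_nonneg_left a3 a1
        _ = _ := by ring
    rw [← Finset.mul_sum] at h1
    have h10 := h3 i j hi hij hj
    have h11 := g2 i j hi hij hj
    have h12 : ∑ s ∈ Icc i j, p i s * d s j ≤ C * C :=
      h10.trans (mul_le_mul_of_nonneg_left h11 hC0.le)
    calc _ ≤ _ := h1
      _ ≤ 2 * C ^ 4 * (C * C) := mul_le_mul_of_nonneg_left h12 (by positivity)
      _ = B := by rw [hB]; ring
  have hpB : ∀ i j, M ≤ i → i ≤ j → j ≤ N → p i j ≤ B := by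
    intro i j hi hij hj
    have h := hBs i j hi hij hj
    have h1 : p i j * (1 / ((j - j : ℕ) + 1 : ℝ))
        ≤ ∑ s ∈ Icc i j, p i s * (1 / ((j - s : ℕ) + 1 : ℝ)) :=
      Finset.single_le_sum (f := fun s => p i s * (1 / ((j - s : ℕ) + 1 : ℝ)))
        (fun s hs => by
          rw [Finset.mem_Icc] at hs
          exact mul_nonneg (p0 i s hi hs.1 (hs.2.trans hj)) (by positivity))
        (Finset.mem_Icc.mpr ⟨hij, le_rfl⟩)
    simp only [Nat.sub_self, Nat.cast_zero, zero_add, div_one, mul_one] at h1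
    exact h1.trans h
  -- step C
  have hwin : ∀ i, M ≤ i → i + K0 ≤ N → ∃ s, i ≤ s ∧ s ≤ i + K0 ∧ p i s ≤ 1 / (2 * C) := by
    intro i hi hiN
    by_contra hcon
    push Not at hcon
    have h := hBs i (i + K0) hi (by omega) hiN
    have h1 : ∑ s ∈ Icc i (i + K0), (1 / (2 * C)) * (1 / ((i + K0 - s : ℕ) + 1 : ℝ))
        ≤ ∑ s ∈ Icc i (i + K0), p i s * (1 / ((i + K0 - s : ℕ) + 1 : ℝ)) := by
      refine Finset.sum_le_sum fun s hs => ?_
      rw [Finset.mem_Icc] at hs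
      exact mul_le_mul_of_nonneg_right (hcon s hs.1 hs.2).le (by positivity)
    have h2' : ∑ s ∈ Icc i (i + K0), (1 / (2 * C)) * (1 / ((i + K0 - s : ℕ) + 1 : ℝ))
        = (1 / (2 * C)) * ∑ k ∈ range (K0 + 1), 1 / ((k : ℝ) + 1) := by
      rw [← Finset.mul_sum]
      congr 1
      refine Finset.sum_nbij' (fun s => i + K0 - s) (fun k => i + K0 - k) ?_ ?_ ?_ ?_ ?_
      · intro s hs; simp only [Finset.mem_Icc, Finset.mem_range] at hs ⊢; omega
      · intro s hs; simp only [Finset.mem_Icc, Finset.mem_range] at hs ⊢; omega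
      · intro s hs; simp only [Finset.mem_Icc] at hs ⊢; omega
      · intro s hs; simp only [Finset.mem_range] at hs ⊢; omega
      · intro s _; rfl
    rw [h2'] at h1
    have h3' : (1 / (2 * C)) * (2 * C * B) < (1 / (2 * C)) * ∑ k ∈ range (K0 + 1), 1 / ((k : ℝ) + 1) :=
      mul_lt_mul_of_pos_left hK0 (by positivity)
    have h4' : (1 / (2 * C)) * (2 * C * B) = B := by
      field_simp
    rw [h4'] at h3'
    linarith
  -- step D
  have hD : ∀ k : ℕ, ∀ i j, M ≤ i → i + k * K0 ≤ j → j ≤ N → p i j ≤ B * (1 / 2) ^ k := by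
    intro k
    induction k with
    | zero => intro i j hi hij hj; simpa using hpB i j hi (by omega) hj
    | succ k ih =>
      intro i j hi hij hj
      have e : (k + 1) * K0 = k * K0 + K0 := by ring
      rw [e] at hij
      obtain ⟨s, hs1, hs2, hs3⟩ := hwin i hi (by omega)
      have a1 := h6 i s j hi hs1 (by omega) hj
      have a2 := ih s j (by omega) (by omega) hj
      have a3 := p0 s j (by omega) (by omega) hj
      have a4 := p0 i s hi hs1 (by omega)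
      calc p i j ≤ C * (p i s * p s j) := a1
        _ ≤ C * ((1 / (2 * C)) * (B * (1 / 2) ^ k)) := by gcongr
        _ = B * (1 / 2) ^ (k + 1) := by
          rw [pow_succ]
          field_simp
  exact ⟨hD, hA⟩


/-- In one window, for every `lam`. -/
theorem rec1 {C : ℝ} (hC : 1 ≤ C) :
    ∃ (K0 : ℕ) (B : ℝ), 0 < B ∧ ∀ (M N : ℕ) (lam : ℝ) (P D : ℕ → ℕ → ℝ), 0 < lam →
      (∀ i j, M ≤ i → i ≤ j → j ≤ N → 0 ≤ P i j) →
      (∀ i j, M ≤ i → i ≤ j → j ≤ N → 0 ≤ D i j) →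
      (∀ i j, M ≤ i → i ≤ j → j ≤ N → C⁻¹ * lam ^ (j - i) ≤ D i j + ∑ s ∈ Icc i j, P i s * D s j) →
      (∀ i j, M ≤ i → i ≤ j → j ≤ N → D i j + ∑ s ∈ Icc i j, P i s * D s j ≤ C * lam ^ (j - i)) →
      (∀ i s, M ≤ i → i ≤ s → s ≤ N → P i s ≤ C * D i s) →
      (∀ i s j, M ≤ i → i ≤ s → s ≤ j → j ≤ N → D i s * D s j ≤ C * D i j) →
      (∀ i s j, M ≤ i → i ≤ s → s ≤ j → j ≤ N → P i j ≤ C * (P i s * P s j)) →
      ∀ k : ℕ, ∀ i j, M ≤ i → i + k * K0 ≤ j → j ≤ N →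
        P i j ≤ B * (1 / 2) ^ k * (2 * C ^ 4 * ((j - i : ℕ) + 1) * D i j) := by
  obtain ⟨K0, B, hB, h⟩ := rec0 hC
  refine ⟨K0, B, hB, ?_⟩
  intro M N lam P D hl p0 d0 g1 g2 h4 h5 h6 k i j hi hij hj
  have hC0 : 0 < C := by linarith
  have hl0 : ∀ n : ℕ, 0 < lam ^ n := fun n => pow_pos hl n
  have hmul : ∀ i s j : ℕ, i ≤ s → s ≤ j → lam ^ (j - i) = lam ^ (s - i) * lam ^ (j - s) := by
    intro i s j h1 h2
    rw [← pow_add]
    congr 1
    omega
  have hsum : ∀ i j : ℕ, i ≤ j → ∑ s ∈ Icc i j, (P i s / lam ^ (s - i)) * (D s j / lam ^ (j - s))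
      = (∑ s ∈ Icc i j, P i s * D s j) / lam ^ (j - i) := by
    intro i j hij
    rw [Finset.sum_div]
    refine Finset.sum_congr rfl fun s hs => ?_
    rw [Finset.mem_Icc] at hs
    rw [hmul i s j hs.1 hs.2, div_mul_div_comm]
  have hS0 : ∀ i j, M ≤ i → i ≤ j → j ≤ N → 0 ≤ D i j + ∑ s ∈ Icc i j, P i s * D s j := by
    intro i j hi hij hj
    refine add_nonneg (d0 i j hi hij hj) (Finset.sum_nonneg fun s hs => ?_)
    rw [Finset.mem_Icc] at hs
    exact mul_nonneg (p0 i s hi hs.1 (hs.2.trans hj)) (d0 s j (hi.trans hs.1) hs.2 hj)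
  have key := h M N (fun i j => P i j / lam ^ (j - i)) (fun i j => D i j / lam ^ (j - i))
    (fun i j => (D i j + ∑ s ∈ Icc i j, P i s * D s j) / lam ^ (j - i)) ?_ ?_ ?_ ?_ ?_ ?_ ?_ ?_ ?_
  · obtain ⟨key1, key2⟩ := key
    have e1 := key1 k i j hi hij hj
    have e2 := key2 i j hi (by omega) hj
    rw [div_le_iff₀ (hl0 _)] at e1
    rw [← mul_div_assoc, le_div_iff₀ (hl0 _), one_mul] at e2
    refine e1.trans ?_
    exact mul_le_mul_of_nonneg_left e2 (by positivity)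
  · exact fun i j hi hij hj => div_nonneg (p0 i j hi hij hj) (hl0 _).le
  · exact fun i j hi hij hj => div_nonneg (d0 i j hi hij hj) (hl0 _).le
  · intro i j hi hij hj
    rw [le_div_iff₀ (hl0 _)]
    exact g1 i j hi hij hj
  · intro i j hi hij hj
    rw [div_le_iff₀ (hl0 _)]
    exact g2 i j hi hij hj
  · intro i j hi hij hj
    rw [hsum i j hij, ← add_div, ← mul_div_assoc]
    refine div_le_div_of_nonneg_right ?_ (hl0 _).le
    exact le_mul_of_one_le_left (hS0 i j hi hij hj) hC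
  · intro i j hi hij hj
    rw [hsum i j hij, ← mul_div_assoc]
    refine div_le_div_of_nonneg_right ?_ (hl0 _).le
    refine le_trans ?_ (le_mul_of_one_le_left (hS0 i j hi hij hj) hC)
    exact le_add_of_nonneg_left (d0 i j hi hij hj)
  · intro i s hi his hs
    rw [← mul_div_assoc]
    exact div_le_div_of_nonneg_right (h4 i s hi his hs) (hl0 _).le
  · intro i s j hi his hsj hj
    rw [div_mul_div_comm, ← hmul i s j his hsj, ← mul_div_assoc]
    exact div_le_div_of_nonneg_right (h5 i s j hi his hsj hj) (hl0 _).le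
  · intro i s j hi his hsj hj
    rw [div_mul_div_comm, ← hmul i s j his hsj, ← mul_div_assoc]
    exact div_le_div_of_nonneg_right (h6 i s j hi his hsj hj) (hl0 _).le

/-- **[BETA-REC] in windows.** -/
theorem rec_win {C : ℝ} (hC : 1 ≤ C) :
    ∃ K : ℕ, 0 < K ∧ ∀ (M N : ℕ) (lam : ℝ) (P D : ℕ → ℕ → ℝ), 0 < lam →
      (∀ i j, M ≤ i → i ≤ j → j ≤ N → 0 ≤ P i j) →
      (∀ i j, M ≤ i → i ≤ j → j ≤ N → 0 ≤ D i j) →
      (∀ i j, M ≤ i → i ≤ j → j ≤ N → j ≤ i + K →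
        C⁻¹ * lam ^ (j - i) ≤ D i j + ∑ s ∈ Icc i j, P i s * D s j) →
      (∀ i j, M ≤ i → i ≤ j → j ≤ N → j ≤ i + K →
        D i j + ∑ s ∈ Icc i j, P i s * D s j ≤ C * lam ^ (j - i)) →
      (∀ i s, M ≤ i → i ≤ s → s ≤ N → P i s ≤ C * D i s) →
      (∀ i s j, M ≤ i → i ≤ s → s ≤ j → j ≤ N → D i s * D s j ≤ C * D i j) →
      (∀ i s j, M ≤ i → i ≤ s → s ≤ j → j ≤ N → P i j ≤ C * (P i s * P s j)) →
      ∀ m i j : ℕ, M ≤ i → i + m * K ≤ j → j ≤ N → P i j ≤ C * (1 / 2) ^ m * D i j := by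
  obtain ⟨K0, B, hB, h⟩ := rec1 hC
  have hC0 : 0 < C := by linarith
  obtain ⟨k, hk0, hk⟩ : ∃ k : ℕ, 0 < k ∧
      B * (1 / 2) ^ k * (2 * C ^ 4 * ((k * (K0 + 1) : ℕ) + 1)) ≤ 1 / (2 * C ^ 2) := by
    have h1 : Tendsto (fun k : ℕ => ((k : ℝ) ^ 1) * (1 / 2 : ℝ) ^ k) atTop (nhds 0) :=
      tendsto_pow_const_mul_const_pow_of_abs_lt_one 1 (by norm_num)
    have h2 : Tendsto (fun k : ℕ => (1 / 2 : ℝ) ^ k) atTop (nhds 0) :=
      tendsto_pow_atTop_nhds_zero_of_lt_one (by norm_num) (by norm_num)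
    have h3 : Tendsto (fun k : ℕ => B * 2 * C ^ 4 * ((K0 + 1) * (((k : ℝ) ^ 1) * (1 / 2 : ℝ) ^ k) +
        (1 / 2 : ℝ) ^ k)) atTop (nhds (B * 2 * C ^ 4 * ((K0 + 1) * 0 + 0))) :=
      (((h1.const_mul _).add h2).const_mul _)
    rw [mul_zero, add_zero, mul_zero] at h3
    have h4 : (0 : ℝ) < 1 / (2 * C ^ 2) := by positivity
    obtain ⟨k, hk1, hk2⟩ := ((h3.eventually (gt_mem_nhds h4)).and (eventually_gt_atTop 0)).exists
    refine ⟨k, hk2, le_trans (le_of_eq ?_) hk1.le⟩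
    push_cast
    ring
  refine ⟨k * (K0 + 1), by positivity, ?_⟩
  set K := k * (K0 + 1) with hKdef
  intro M N lam P D hl p0 d0 g1 g2 h4 h5 h6
  -- one window
  have hone : ∀ i, M ≤ i → i + K ≤ N → P i (i + K) ≤ 1 / (2 * C ^ 2) * D i (i + K) := by
    intro i hi hN
    have h1 := h i (i + K) lam P D hl (fun a b ha hab hb => p0 a b (hi.trans ha) hab (hb.trans hN))
      (fun a b ha hab hb => d0 a b (hi.trans ha) hab (hb.trans hN))
      (fun a b ha hab hb => g1 a b (hi.trans ha) hab (hb.trans hN) (by omega))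
      (fun a b ha hab hb => g2 a b (hi.trans ha) hab (hb.trans hN) (by omega))
      (fun a b ha hab hb => h4 a b (hi.trans ha) hab (hb.trans hN))
      (fun a s b ha has hsb hb => h5 a s b (hi.trans ha) has hsb (hb.trans hN))
      (fun a s b ha has hsb hb => h6 a s b (hi.trans ha) has hsb (hb.trans hN))
      k i (i + K) le_rfl (by rw [hKdef]; nlinarith) le_rfl
    refine h1.trans ?_
    have e1 : i + K - i = K := by omega
    rw [e1, show B * (1 / 2) ^ k * (2 * C ^ 4 * ((K : ℕ) + 1) * D i (i + K)) =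
      B * (1 / 2) ^ k * (2 * C ^ 4 * ((K : ℕ) + 1)) * D i (i + K) by ring]
    exact mul_le_mul_of_nonneg_right hk (d0 i (i + K) hi (by omega) hN)
  intro m
  induction m with
  | zero =>
    intro i j hi hij hj
    rw [pow_zero, mul_one]
    exact h4 i j hi (by omega) hj
  | succ m ih =>
    intro i j hi hij hj
    have e : (m + 1) * K = m * K + K := by ring
    rw [e] at hij
    have a1 := h6 i (i + K) j hi (by omega) (by omega) hj
    have a2 := hone i hi (by omega)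
    have a3 := ih (i + K) j (by omega) (by omega) hj
    have a4 := p0 (i + K) j (by omega) (by omega) hj
    have a5 := d0 i (i + K) hi (by omega) (by omega)
    have a6 := h5 i (i + K) j hi (by omega) (by omega) hj
    have a7 := p0 i (i + K) hi (by omega) (by omega)
    calc P i j ≤ C * (P i (i + K) * P (i + K) j) := a1
      _ ≤ C * ((1 / (2 * C ^ 2) * D i (i + K)) * (C * (1 / 2) ^ m * D (i + K) j)) := by gcongr
      _ = (C * (1 / (2 * C ^ 2)) * C) * ((1 / 2) ^ m * (D i (i + K) * D (i + K) j)) := by ring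
      _ = (1 / 2) ^ (m + 1) * (D i (i + K) * D (i + K) j) := by
        have hC2 : C * (1 / (2 * C ^ 2)) * C = 1 / 2 := by field_simp
        rw [hC2, pow_succ]
        ring
      _ ≤ (1 / 2) ^ (m + 1) * (C * D i j) := mul_le_mul_of_nonneg_left a6 (by positivity)
      _ = C * (1 / 2) ^ (m + 1) * D i j := by ring

end Vale.Agent.P167.H692.B
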