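import Vale.Agent.P167.H692.B.Sw2
import Vale.Agent.P167.H692.B.Win

/-!
# P167, general `q`, block BETA: `QB.S_beta`

The primal arm of a flat free side is less likely than the dual arm, by a power of the ratio of the
radii.
-/

set_option autoImplicit false

namespace Vale.Agent.P167.H692.B

open Finset Relation Vale.Agent.P167.FK Vale.Agent.P167.FKA Vale.Agent.P167.QM
open Vale.Agent.P167.H192.TA (Xc Pw dq sr)
open Vale.Agent.P167.H192.Q (SRSW Xc_restrict)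
open Vale.Agent.P167.H469 (hx)
open Vale.Agent.P167.H452.BE (S_BE)

variable {θ : ℝ} {P : MeasureTheory.Measure Cfg} {M : ℤ} {Q : ℝ}

/-- The exponent. -/
theorem pw_bd (hM : 2 ≤ M) {Kw : ℕ} (hKw : 0 < Kw) : ∃ α : ℝ, 0 < α ∧ ∀ (t m : ℕ) (r R : ℤ),
    0 < r → 0 < R → R ≤ M ^ (t + 2) * r → t + 2 ≤ (m + 2) * Kw →
      (1 / 2 : ℝ) ^ m ≤ 4 * ((r : ℝ) / R) ^ α := by
  have hMr : (2 : ℝ) ≤ (M : ℝ) := by exact_mod_cast hM
  have hM0 : (0 : ℝ) < (M : ℝ) := by linarith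
  have hlog : 0 < Real.log M := Real.log_pos (by linarith)
  have hK0 : (0 : ℝ) < Kw := by exact_mod_cast hKw
  have hα : 0 < Real.log 2 / (Kw * Real.log M) := div_pos (Real.log_pos (by norm_num)) (by positivity)
  refine ⟨Real.log 2 / (Kw * Real.log M), hα, fun t m r R hr hR h1 h2 => ?_⟩
  set α := Real.log 2 / (Kw * Real.log M) with hαd
  have e1 : ((M : ℝ) ^ Kw) ^ α = 2 := by
    rw [Real.rpow_def_of_pos (by positivity), Real.log_pow, hαd]
    rw [show (Kw : ℝ) * Real.log M * (Real.log 2 / (Kw * Real.log M)) = Real.log 2 by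
      field_simp]
    exact Real.exp_log (by norm_num)
  have hr' : (0 : ℝ) < r := by exact_mod_cast hr
  have hR' : (0 : ℝ) < R := by exact_mod_cast hR
  have h3 : (R : ℝ) ≤ ((M : ℝ) ^ Kw) ^ (m + 2) * r := by
    have h4 : M ^ (t + 2) ≤ M ^ ((m + 2) * Kw) := (ple hM).2 h2
    have h5 : R ≤ M ^ ((m + 2) * Kw) * r := h1.trans (mul_le_mul_of_nonneg_right h4 hr.le)
    have h6 : (R : ℝ) ≤ (M : ℝ) ^ ((m + 2) * Kw) * r := by exact_mod_cast h5
    rwa [mul_comm (m + 2) Kw, pow_mul] at h6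
  have h7 : (((M : ℝ) ^ Kw) ^ (m + 2))⁻¹ ≤ (r : ℝ) / R := by
    rw [inv_le_iff_one_le_mul₀ (by positivity), mul_comm, ← mul_div_assoc, one_le_div hR']
    exact h3
  have h8 := Real.rpow_le_rpow (by positivity) h7 hα.le
  rw [Real.inv_rpow (by positivity), ← Real.rpow_pow_comm (by positivity), e1] at h8
  calc (1 / 2 : ℝ) ^ m = 4 * (2 ^ (m + 2))⁻¹ := by
        rw [pow_add, one_div, inv_pow]
        field_simp
        norm_num
    _ ≤ 4 * ((r : ℝ) / R) ^ α := mul_le_mul_of_nonneg_left h8 (by norm_num)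

theorem exists_up (hM : 2 ≤ M) {r : ℤ} (hr : 1 ≤ r) : ∃ i : ℕ, r ≤ M ^ i ∧ M ^ i ≤ M * r := by
  classical
  have hex : ∃ i : ℕ, r ≤ M ^ i := ⟨r.toNat, by have := lt_mpow hM r.toNat; omega⟩
  refine ⟨Nat.find hex, Nat.find_spec hex, ?_⟩
  rcases Nat.eq_zero_or_pos (Nat.find hex) with h | h
  · rw [h, pow_zero]
    nlinarith
  · obtain ⟨i, hi⟩ : ∃ i, Nat.find hex = i + 1 := ⟨Nat.find hex - 1, by omega⟩
    have h1 := Nat.find_min hex (m := i) (by omega)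
    rw [hi, pow_succ]
    nlinarith

theorem exists_dn (hM : 2 ≤ M) {R : ℤ} (hR : 1 ≤ R) : ∃ j : ℕ, M ^ j ≤ R ∧ R ≤ M * M ^ j := by
  classical
  have hex : ∃ j : ℕ, R ≤ M * M ^ j := ⟨R.toNat, by have := lt_mpow hM R.toNat; nlinarith [Int.self_le_toNat R]⟩
  refine ⟨Nat.find hex, ?_, Nat.find_spec hex⟩
  rcases Nat.eq_zero_or_pos (Nat.find hex) with h | h
  · rw [h, pow_zero]
    exact hR
  · obtain ⟨i, hi⟩ : ∃ i, Nat.find hex = i + 1 := ⟨Nat.find hex - 1, by omega⟩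
    have h1 := Nat.find_min hex (m := i) (by omega)
    rw [hi, pow_succ]
    nlinarith

/-- From the sums in windows. -/
theorem beta_of (hM : 2 ≤ M) (C : Kb Q M) {lam C1 : ℝ} {K' : ℤ} (hlam : 0 < lam) (hC1 : 1 ≤ C1)
    (hK' : C.K ≤ K') (h : ∀ Kw : ℕ, ∃ i0 : ℕ, C.s ≤ M ^ i0 ∧
      ∀ (b : ℤ × ℤ) (N : ℤ) (i j : ℕ), i0 ≤ i → i ≤ j → j ≤ i + Kw → K' * M ^ j ≤ N →
        C1⁻¹ * lam ^ (j - i) ≤ Sn Q M b N i j ∧ Sn Q M b N i j ≤ C1 * lam ^ (j - i)) :
    ∃ (α C' : ℝ) (K s₀ : ℤ), 0 < α ∧ 0 < C' ∧ 1 ≤ K ∧ 1 ≤ s₀ ∧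
      ∀ (b : ℤ × ℤ) (r R N : ℤ), s₀ ≤ r → r ≤ R → K * R ≤ N →
        hx Q true b r R N ≤ C' * ((r : ℝ) / R) ^ α * hx Q false b r R N := by
  have hC0 := C.C0
  have hCC := C.hC
  have hKk := C.hK
  have hss := C.hs
  obtain ⟨Cc, hCc⟩ : ∃ Cc : ℝ, Cc = C1 + C.C := ⟨_, rfl⟩
  have hCc1 : 1 ≤ Cc := by linarith
  obtain ⟨Kw, hKw, hrec⟩ := rec_win hCc1
  obtain ⟨i0, hi0, hw⟩ := h Kw
  obtain ⟨α, hα, hpw⟩ := pw_bd hM hKw
  -- the recursion
  have key : ∀ (b : ℤ × ℤ) (N : ℤ) (m i j : ℕ), i0 ≤ i → i + m * Kw ≤ j → K' * M ^ j ≤ N →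
      hx Q true b (M ^ i) (M ^ j) N ≤ Cc * (1 / 2) ^ m * hx Q false b (M ^ i) (M ^ j) N := by
    intro b N m i j hi hij hN
    have hN' : ∀ a, a ≤ j → K' * M ^ a ≤ N := fun a ha =>
      (mul_le_mul_of_nonneg_left ((ple hM).2 ha) (by omega)).trans hN
    have hNk : ∀ a, a ≤ j → C.K * M ^ a ≤ N := fun a ha =>
      (mul_le_mul_of_nonneg_right hK' (by have := ppos hM a; omega)).trans (hN' a ha)
    have hsi : ∀ a, i0 ≤ a → C.s ≤ M ^ a := fun a ha => hi0.trans ((ple hM).2 ha)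
    refine hrec i0 j lam (fun i j => hx Q true b (M ^ i) (M ^ j) N)
      (fun i j => hx Q false b (M ^ i) (M ^ j) N) hlam (fun _ _ _ _ _ => C.nn _ _ _ _ _)
      (fun _ _ _ _ _ => C.nn _ _ _ _ _) ?_ ?_ ?_ ?_ ?_ m i j hi hij le_rfl
    · intro a c ha hac hc hcw
      have h1 := (hw b N a c ha hac hcw (hN' c hc)).1
      have h2 : Cc⁻¹ ≤ C1⁻¹ := inv_anti₀ (by linarith) (by linarith)
      exact (mul_le_mul_of_nonneg_right h2 (pow_pos hlam _).le).trans h1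
    · intro a c ha hac hc hcw
      have h1 := (hw b N a c ha hac hcw (hN' c hc)).2
      exact h1.trans (mul_le_mul_of_nonneg_right (by linarith) (pow_pos hlam _).le)
    · intro a c ha hac hc
      exact (C.a4 b (M ^ a) (M ^ c) N (hsi a ha) ((ple hM).2 hac) (hNk c hc)).trans
        (mul_le_mul_of_nonneg_right (by linarith) (C.nn _ _ _ _ _))
    · intro a x c ha hax hxc hc
      exact (C.a5 false b (M ^ a) (M ^ x) (M ^ c) N (hsi a ha) ((ple hM).2 hax) ((ple hM).2 hxc)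
        (hNk c hc)).trans (mul_le_mul_of_nonneg_right (by linarith) (C.nn _ _ _ _ _))
    · intro a x c ha hax hxc hc
      exact (C.a6 true b (M ^ a) (M ^ x) (M ^ c) N (hsi a ha) ((ple hM).2 hax) ((ple hM).2 hxc)
        (hNk c hc)).trans (mul_le_mul_of_nonneg_right (by linarith)
          (mul_nonneg (C.nn _ _ _ _ _) (C.nn _ _ _ _ _)))
  refine ⟨α, 4 * Cc * C.C ^ 4, K', M ^ i0, hα, by positivity, by omega, ppos hM i0,
    fun b r R N hr hrR hN => ?_⟩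
  have hr1 : 1 ≤ r := (ppos hM i0).trans hr
  have hsr : C.s ≤ r := hi0.trans hr
  have hNk : C.K * R ≤ N := (mul_le_mul_of_nonneg_right hK' (by omega)).trans hN
  have hF := C.nn false b r R N
  obtain ⟨i, hi1, hi2⟩ := exists_up hM hr1
  obtain ⟨j, hj1, hj2⟩ := exists_dn hM (by omega : 1 ≤ R)
  have hii : i0 ≤ i := (ple hM).1 (hr.trans hi1)
  have hpos : 0 ≤ ((r : ℝ) / R) ^ α := Real.rpow_nonneg (by
    have : (0 : ℝ) ≤ r := by exact_mod_cast (by omega : 0 ≤ r)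
    have : (0 : ℝ) ≤ R := by exact_mod_cast (by omega : 0 ≤ R)
    positivity) _
  by_cases hij : i ≤ j
  · have hMij : M ^ i ≤ M ^ j := (ple hM).2 hij
    have g1 : hx Q true b r R N ≤ hx Q true b (M ^ i) (M ^ j) N :=
      Pr_mono (by linarith [C.hQ]) (Xc_restrict hi1 hMij hj1)
    have g2 := key b N ((j - i) / Kw) i j hii (by
      have := Nat.div_mul_le_self (j - i) Kw
      omega) ((mul_le_mul_of_nonneg_left hj1 (by omega)).trans hN)
    have g3 : hx Q false b (M ^ i) (M ^ j) N ≤ C.C ^ 4 * hx Q false b r R N :=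
      C.grow hsr hi1 hi2 hMij hj1 hj2 hNk
    have g4 := hpw (j - i) ((j - i) / Kw) r R (by omega) (by omega) (by
      have e1 : M ^ j = M ^ i * M ^ (j - i) := by
        rw [← pow_add]
        congr 1
        omega
      have e2 : M ^ (j - i + 2) = M * M ^ (j - i) * M := by ring
      have h0 := ppos hM (j - i)
      have h1 : M ^ i * M ^ (j - i) ≤ M * r * M ^ (j - i) :=
        mul_le_mul_of_nonneg_right hi2 (by omega)
      calc R ≤ M * M ^ j := hj2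
        _ = M * (M ^ i * M ^ (j - i)) := by rw [e1]
        _ ≤ M * (M * r * M ^ (j - i)) := mul_le_mul_of_nonneg_left h1 (by omega)
        _ = M ^ (j - i + 2) * r := by rw [e2]; ring) (by
      have h1 := Nat.lt_div_mul_add (a := j - i) hKw
      nlinarith)
    calc hx Q true b r R N ≤ Cc * (1 / 2) ^ ((j - i) / Kw) * hx Q false b (M ^ i) (M ^ j) N :=
          g1.trans g2
      _ ≤ Cc * (4 * ((r : ℝ) / R) ^ α) * (C.C ^ 4 * hx Q false b r R N) :=
          mul_le_mul (mul_le_mul_of_nonneg_left g4 (by linarith)) g3 (C.nn _ _ _ _ _) (by positivity)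
      _ = _ := by ring
  · push Not at hij
    have hRr : R ≤ M * r := by
      by_contra hcon
      push Not at hcon
      have h1 : M * M ^ j ≤ M ^ i := by
        rw [← pow_succ']
        exact (ple hM).2 (by omega)
      omega
    have g1 := C.a8 false b r R N hsr hrR hRr hNk
    have g4 := hpw 0 0 r R (by omega) (by omega) (by
      calc R ≤ M * r := hRr
        _ ≤ M ^ (0 + 2) * r := by
          have : M ≤ M ^ 2 := by nlinarith
          exact mul_le_mul_of_nonneg_right this (by omega)) (by omega)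
    rw [pow_zero] at g4
    have h4 : C.C ≤ C.C ^ 4 := le_self_pow₀ hCC (by norm_num)
    calc hx Q true b r R N ≤ 1 * 1 := by rw [one_mul]; exact C.le1 _ _ _ _ _
      _ ≤ (4 * ((r : ℝ) / R) ^ α) * (C.C * hx Q false b r R N) :=
          mul_le_mul g4 g1 zero_le_one (by positivity)
      _ ≤ (4 * ((r : ℝ) / R) ^ α) * (Cc * (C.C ^ 4 * hx Q false b r R N)) := by
          refine mul_le_mul_of_nonneg_left ?_ (by positivity)
          calc C.C * hx Q false b r R N ≤ C.C ^ 4 * hx Q false b r R N :=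
                mul_le_mul_of_nonneg_right h4 hF
            _ ≤ Cc * (C.C ^ 4 * hx Q false b r R N) :=
                le_mul_of_one_le_left (by positivity) hCc1
      _ = _ := by ring

theorem hbox_eq {b : ℤ × ℤ} {N : ℤ} : BR.hbox b N = HB b N := by
  ext v
  rw [H469.mem_HB]
  unfold BR.hbox
  rw [Finset.mem_product, Finset.mem_Icc, Finset.mem_Icc]
  constructor
  · rintro ⟨⟨h1, h2⟩, h3, h4⟩
    omega
  · rintro ⟨h1, h2, h3, h4, h5⟩
    omega

/-- **(BETA).** -/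
theorem s_betaL (hQ : 1 ≤ 2 * Real.cos θ) (hR : RSW (2 * Real.cos θ)) (hS : SRSW (2 * Real.cos θ))
    (hBE : S_BE θ P) (hpow : S_powL θ P) : QB.S_beta θ := by
  obtain ⟨M0, hM0, hBE⟩ := hBE
  obtain ⟨K0, hK0, hBE⟩ := hBE M0 le_rfl
  obtain ⟨K1, hpow⟩ := hpow M0 hM0
  obtain ⟨K, hK⟩ : ∃ K : ℤ, K = max K0 K1 := ⟨_, rfl⟩
  have hKa : K0 ≤ K := by rw [hK]; exact le_max_left _ _
  have hKb : K1 ≤ K := by rw [hK]; exact le_max_right _ _
  obtain ⟨c, C', a₀, L, hc, hC', ha₀, hL, hBE⟩ := hBE K hKa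
  obtain ⟨C⟩ := exists_Kb hQ hR hS M0
  obtain ⟨lam', C1, K', hlam', hC1, hK', hw⟩ := window (P := P) (K := K) hM0 (by omega) C hL
    ⟨c, C', a₀, hc, hC', hBE⟩ (hpow K hKb L)
  obtain ⟨α, C2, K2, s₀, h1, h2, h3, h4, h5⟩ := beta_of hM0 C hlam' hC1 hK' hw
  refine ⟨α, C2, K2, s₀, h1, h2, h3, h4, fun b r R N hr hrR hN => ?_⟩
  rw [hbox_eq]
  exact h5 b r R N hr hrR hN

theorem s_beta (hQ : 1 ≤ 2 * Real.cos θ) (hR : RSW (2 * Real.cos θ)) (hS : SRSW (2 * Real.cos θ))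
    (hBE : S_BE θ P) (hpow : S_pow θ P) : QB.S_beta θ := s_betaL hQ hR hS hBE hpow.L

end Vale.Agent.P167.H692.B
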