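import Vale.Agent.P167.H469.BArm
import Vale.Agent.P167.H692.B.Defs

/-!
# P167, general `q`, block BETA: arm probabilities at different points
-/

set_option autoImplicit false

namespace Vale.Agent.P167.H692.B

open Finset Relation Vale.Agent.P167.FK Vale.Agent.P167.FKA Vale.Agent.P167.QM
open Vale.Agent.P145.FB (PStep PConn)
open Vale.Agent.P167.H632 (cs pr nm_le le_nm)
open Vale.Agent.P167.H192.TA (Xc Pw dq sr)
open Vale.Agent.P167.H192.Q (SRSW Xc_restrict)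
open Vale.Agent.P167.H469 (hx A4 A5 A6 A7 A8 FlF Xc_shift)

variable {Q : ℝ} {e : Bool} {b p : ℤ × ℤ} {r R N : ℤ} {ω : Cfg}

/-! ### Translations -/

/-- The translated configuration. -/
def tr (p : ℤ × ℤ) (ω : Cfg) : Cfg := ω ∘ fun v => (v.1 + p.1, v.2 + p.2)

theorem xc_tr (hp : Even (p.1 + p.2)) (h : tr p ω ∈ Xc e b r R) :
    ω ∈ Xc e (b.1 + p.1, b.2 + p.2) r R := by
  obtain ⟨y, y', g1, g2, g3, g4, g5⟩ := h
  have key : ∀ z, Pw (cs e (tr p ω) ∩ dq b r R) y z →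
      Pw (cs e ω ∩ dq (b.1 + p.1, b.2 + p.2) r R) (y.1 + p.1, y.2 + p.2) (z.1 + p.1, z.2 + p.2) := by
    intro z hz
    induction hz with
    | refl => exact ReflTransGen.refl
    | @tail x z _ hxz ih =>
      obtain ⟨h1, h2, h3, h4⟩ := hxz
      refine ih.tail ⟨by dsimp only; omega, by dsimp only; omega, ?_⟩
      have e1 : min (x.1 + p.1) (z.1 + p.1) = min x.1 z.1 + p.1 := by omega
      have e2 : min (x.2 + p.2) (z.2 + p.2) = min x.2 z.2 + p.2 := by omega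
      dsimp only
      rw [e1, e2]
      refine ⟨h3, ?_⟩
      simp only [dq, Set.mem_ofPred_eq] at h4 ⊢
      omega
  refine ⟨(y.1 + p.1, y.2 + p.2), (y'.1 + p.1, y'.2 + p.2), ?_, ?_, ?_, key _ g4, ?_⟩
  · simp only [sr, Set.mem_ofPred_eq] at g1 ⊢
    omega
  · rw [Int.even_iff] at hp
    dsimp only
    have := H632.pr_or e
    omega
  · rw [nm_le] at g3 ⊢
    simp only [Prod.fst_sub, Prod.snd_sub] at g3 ⊢
    omega
  · rw [le_nm] at g5 ⊢
    simp only [Prod.fst_sub, Prod.snd_sub] at g5 ⊢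
    omega

theorem hx_tr_le (hQ : 1 ≤ Q) (hp : Even (p.1 + p.2)) :
    hx Q e b r R N ≤ hx Q e (b.1 + p.1, b.2 + p.2) r R N := by
  have hQ0 : 0 < Q := by linarith
  obtain ⟨-, h2⟩ := FK.sym_of (τ := fun v : ℤ × ℤ => (v.1 + p.1, v.2 + p.2)) (FK.trV p)
    (fun v => rfl) (FK.trE p) (fun ω => (FK.syP_tr p hp ω).sy)
  have h3 := h2 Q (HB b N) eta0 ((Xc e b r R).indicator 1) hQ0 f_good.2.1
  have e1 : (eta0 ∘ fun v : ℤ × ℤ => (v.1 + p.1, v.2 + p.2)) = eta0 := rfl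
  have e2 : (HB b N).image (fun v : ℤ × ℤ => (v.1 + p.1, v.2 + p.2)) =
      HB (b.1 + p.1, b.2 + p.2) N := by
    ext v
    rw [Finset.mem_image, H469.mem_HB]
    constructor
    · rintro ⟨w, hw, rfl⟩
      rw [H469.mem_HB] at hw
      dsimp only
      omega
    · intro hv
      refine ⟨(v.1 - p.1, v.2 - p.2), ?_, by ext <;> simp⟩
      rw [H469.mem_HB]
      dsimp only at hv ⊢
      omega
  rw [e1, e2] at h3
  unfold hx Pr
  rw [h3]
  refine Ex_mono hQ0 fun S _ => ?_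
  generalize cf (HB (b.1 + p.1, b.2 + p.2) N) eta0 S = ω
  show (Xc e b r R).indicator 1 (tr p ω) ≤ (Xc e (b.1 + p.1, b.2 + p.2) r R).indicator (1 : Cfg → ℝ) ω
  by_cases h : tr p ω ∈ Xc e b r R
  · rw [Set.indicator_of_mem h, Set.indicator_of_mem (xc_tr hp h)]
    exact le_refl (1 : ℝ)
  · rw [Set.indicator_of_notMem h]
    exact ind_nonneg _ _

/-- Arms at points of the same parity. -/
theorem hx_even (hQ : 1 ≤ Q) {b' : ℤ × ℤ} (h : Even ((b'.1 - b.1) + (b'.2 - b.2))) :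
    hx Q e b r R N ≤ hx Q e b' r R N := by
  have h1 := hx_tr_le (Q := Q) (e := e) (b := b) (p := (b'.1 - b.1, b'.2 - b.2)) (r := r) (R := R)
    (N := N) hQ h
  have e1 : (b.1 + (b'.1 - b.1, b'.2 - b.2).1, b.2 + (b'.1 - b.1, b'.2 - b.2).2) = b' := by
    ext <;> dsimp only <;> ring
  rwa [e1] at h1

/-- The constants. -/
structure Kb (Q : ℝ) (M : ℤ) where
  hQ : 1 ≤ Q
  C : ℝ
  K : ℤ
  s : ℤ
  hC : 1 ≤ C
  hK : 4 ≤ K
  hs : 2 ≤ s
  a4 : ∀ (b : ℤ × ℤ) (r R N : ℤ), s ≤ r → r ≤ R → K * R ≤ N →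
    hx Q true b r R N ≤ C * hx Q false b r R N
  a5 : ∀ (e : Bool) (b : ℤ × ℤ) (r m R N : ℤ), s ≤ r → r ≤ m → m ≤ R → K * R ≤ N →
    hx Q e b r m N * hx Q e b m R N ≤ C * hx Q e b r R N
  a6 : ∀ (e : Bool) (b : ℤ × ℤ) (r m R N : ℤ), s ≤ r → r ≤ m → m ≤ R → K * R ≤ N →
    hx Q e b r R N ≤ C * (hx Q e b r m N * hx Q e b m R N)
  a7 : ∀ (e : Bool) (b : ℤ × ℤ) (r R N : ℤ) (D : Finset (ℤ × ℤ)) (η : Cfg), s ≤ r → r ≤ R →
    K * R ≤ N → Good η → FlF D η b (K * R) → Pr Q D η (Xc e b r R) ≤ C * hx Q e b r R N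
  a8 : ∀ (e : Bool) (b : ℤ × ℤ) (r R N : ℤ), s ≤ r → r ≤ R → R ≤ M * r → K * R ≤ N →
    1 ≤ C * hx Q e b r R N

theorem exists_Kb (hQ : 1 ≤ Q) (hR : RSW Q) (hS : SRSW Q) (M : ℤ) : Nonempty (Kb Q M) := by
  have hQ0 : 0 < Q := by linarith
  obtain ⟨C4, K4, s4, hC4, hK4, hs4, h4⟩ := H469.a4 hQ hR hS
  obtain ⟨C5, K5, s5, hC5, hK5, hs5, h5⟩ := H469.a5 hQ hR hS
  obtain ⟨C6, K6, s6, hC6, hK6, hs6, h6⟩ := H469.a6 hQ hR hS
  obtain ⟨C7, K7, hC7, hK7, h7⟩ := H469.a7 hQ hR hS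
  obtain ⟨c8, K8, s8, hc8, hK8, hs8, h8⟩ := H469.a8 hQ hR hS M
  have h0 : ∀ (e : Bool) (b : ℤ × ℤ) (r R N : ℤ), 0 ≤ hx Q e b r R N := fun _ _ _ _ _ =>
    Pr_nonneg hQ0 _
  obtain ⟨C, hC⟩ : ∃ C : ℝ, C = 1 + C4 + C5 + C6 + C7 + 1 / c8 := ⟨_, rfl⟩
  have hc8' : 0 < 1 / c8 := by positivity
  obtain ⟨K, hK⟩ : ∃ K : ℤ, K = 4 + K4 + K5 + K6 + K7 + K8 := ⟨_, rfl⟩
  obtain ⟨s, hs⟩ : ∃ s : ℤ, s = 2 + s4 + s5 + s6 + s8 := ⟨_, rfl⟩
  have hN : ∀ {K' R N : ℤ}, K' ≤ K → 0 ≤ R → K * R ≤ N → K' * R ≤ N := fun h1 h2 h3 =>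
    (mul_le_mul_of_nonneg_right h1 h2).trans h3
  refine ⟨⟨hQ, C, K, s, by linarith, by omega, by omega, ?_, ?_, ?_, ?_, ?_⟩⟩
  · intro b r R N hr hrR hN'
    refine (h4 b r R N (by omega) hrR (hN (by omega) (by omega) hN')).trans ?_
    exact mul_le_mul_of_nonneg_right (by linarith) (h0 _ _ _ _ _)
  · intro e b r m R N hr hrm hmR hN'
    refine (h5 e b r m R N (by omega) hrm hmR (hN (by omega) (by omega) hN')).trans ?_
    exact mul_le_mul_of_nonneg_right (by linarith) (h0 _ _ _ _ _)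
  · intro e b r m R N hr hrm hmR hN'
    refine (h6 e b r m R N (by omega) hrm hmR (hN (by omega) (by omega) hN')).trans ?_
    exact mul_le_mul_of_nonneg_right (by linarith) (mul_nonneg (h0 _ _ _ _ _) (h0 _ _ _ _ _))
  · intro e b r R N D η hr hrR hN' hη hD
    have hD' : FlF D η b (K7 * R) := by
      have h1 : K7 * R ≤ K * R := mul_le_mul_of_nonneg_right (by omega) (by omega)
      exact ⟨fun v hv => hD.dom v (H167.Q.bq_mono h1 hv), fun v hv => hD.out v (H167.Q.bq_mono h1 hv)⟩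
    refine (h7 e b r R N D η (by omega) hrR (hN (by omega) (by omega) hN') hη hD').1.trans ?_
    exact mul_le_mul_of_nonneg_right (by linarith) (h0 _ _ _ _ _)
  · intro e b r R N hr hrR hR2 hN'
    have h1 := h8 e b r R N (by omega) hrR hR2 (hN (by omega) (by omega) hN')
    have h2 : 1 ≤ 1 / c8 * hx Q e b r R N := by
      rw [one_div, ← div_eq_inv_mul, le_div_iff₀ hc8, one_mul]
      exact h1
    refine h2.trans (mul_le_mul_of_nonneg_right (by linarith) (h0 _ _ _ _ _))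

variable {M : ℤ} (C : Kb Q M)

theorem Kb.C0 : 0 < C.C := by linarith [C.hC]

include C in
theorem Kb.nn (e : Bool) (b : ℤ × ℤ) (r R N : ℤ) : 0 ≤ hx Q e b r R N :=
  Pr_nonneg (by linarith [C.hQ]) _

include C in
theorem Kb.le1 (e : Bool) (b : ℤ × ℤ) (r R N : ℤ) : hx Q e b r R N ≤ 1 :=
  Pr_le_one (by linarith [C.hQ]) _

/-- The box does not matter. -/
theorem Kb.env {N' : ℤ} (hr : C.s ≤ r) (hrR : r ≤ R) (hN : C.K * R ≤ N) (hN' : C.K * R ≤ N') :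
    hx Q e b r R N ≤ C.C * hx Q e b r R N' := by
  refine C.a7 e b r R N' (HB b N) eta0 hr hrR hN' f_good.2.1 ⟨fun v hv => ?_, fun _ _ _ => rfl⟩
  rw [H469.mem_HB]
  rw [H469.mem_Bq'] at hv
  omega

/-- Changing the radii. -/
theorem Kb.grow {r' R' : ℤ} (hr : C.s ≤ r) (h1 : r ≤ r') (h2 : r' ≤ M * r) (h3 : r' ≤ R')
    (h4 : R' ≤ R) (h5 : R ≤ M * R') (hN : C.K * R ≤ N) :
    hx Q e b r' R' N ≤ C.C ^ 4 * hx Q e b r R N := by
  have hC0 := C.C0
  have hs := C.hs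
  have hK := C.hK
  have hN' : C.K * R' ≤ N := (mul_le_mul_of_nonneg_left h4 (by omega)).trans hN
  have hN'' : C.K * r' ≤ N := (mul_le_mul_of_nonneg_left h3 (by omega)).trans hN'
  have a1 := C.a8 e b r r' N hr h1 h2 hN''
  have a2 := C.a5 e b r r' R' N hr h1 h3 hN'
  have a3 := C.a8 e b R' R N (by omega) h4 h5 hN
  have a4 := C.a5 e b r R' R N hr (by omega) h4 hN
  have n1 := C.nn e b r' R' N
  have n2 := C.nn e b r R' N
  have k1 : hx Q e b r' R' N ≤ C.C ^ 2 * hx Q e b r R' N := by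
    calc hx Q e b r' R' N = 1 * hx Q e b r' R' N := (one_mul _).symm
      _ ≤ (C.C * hx Q e b r r' N) * hx Q e b r' R' N := mul_le_mul_of_nonneg_right a1 n1
      _ = C.C * (hx Q e b r r' N * hx Q e b r' R' N) := by ring
      _ ≤ C.C * (C.C * hx Q e b r R' N) := mul_le_mul_of_nonneg_left a2 hC0.le
      _ = _ := by ring
  have k2 : hx Q e b r R' N ≤ C.C ^ 2 * hx Q e b r R N := by
    calc hx Q e b r R' N = hx Q e b r R' N * 1 := (mul_one _).symm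
      _ ≤ hx Q e b r R' N * (C.C * hx Q e b R' R N) := mul_le_mul_of_nonneg_left a3 n2
      _ = C.C * (hx Q e b r R' N * hx Q e b R' R N) := by ring
      _ ≤ C.C * (C.C * hx Q e b r R N) := mul_le_mul_of_nonneg_left a4 hC0.le
      _ = _ := by ring
  calc hx Q e b r' R' N ≤ C.C ^ 2 * hx Q e b r R' N := k1
    _ ≤ C.C ^ 2 * (C.C ^ 2 * hx Q e b r R N) := mul_le_mul_of_nonneg_left k2 (by positivity)
    _ = _ := by ring

/-- Neighbouring points. -/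
theorem Kb.shift (hM : 2 ≤ M) {b' : ℤ × ℤ} (h2 : b'.2 = b.2) (h3 : b.1 - 1 ≤ b'.1)
    (h4 : b'.1 ≤ b.1 + 1) (hr : C.s ≤ r) (hrR : r ≤ R) (hN : C.K * R ≤ N) :
    hx Q e b' r R N ≤ C.C ^ 5 * hx Q e b r R N := by
  have hC0 := C.C0
  have hC1 := C.hC
  have hs := C.hs
  have hK := C.hK
  by_cases hc : r + 1 ≤ R - 1
  · have hN' : C.K * (R - 1) ≤ N := (mul_le_mul_of_nonneg_left (by omega) (by omega)).trans hN
    have hN2 : C.K * (R - 1) + 1 ≤ N := by nlinarith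
    have k1 : hx Q e b' r R N ≤ Pr Q (HB b' N) eta0 (Xc e b (r + 1) (R - 1)) :=
      Pr_mono (by linarith [C.hQ]) (Xc_shift h2 h3 h4 hc)
    have k2 := C.a7 e b (r + 1) (R - 1) N (HB b' N) eta0 (by omega) hc hN' f_good.2.1
      ⟨fun v hv => by
        rw [H469.mem_HB]
        rw [H469.mem_Bq'] at hv
        omega, fun _ _ _ => rfl⟩
    have k3 : hx Q e b (r + 1) (R - 1) N ≤ C.C ^ 4 * hx Q e b r R N :=
      C.grow hr (by omega) (by nlinarith) hc (by omega) (by nlinarith) hN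
    calc hx Q e b' r R N ≤ _ := k1
      _ ≤ C.C * hx Q e b (r + 1) (R - 1) N := k2
      _ ≤ C.C * (C.C ^ 4 * hx Q e b r R N) := mul_le_mul_of_nonneg_left k3 hC0.le
      _ = _ := by ring
  · have k1 := C.a8 e b r R N hr hrR (by nlinarith) hN
    have k2 : (1 : ℝ) ≤ C.C ^ 4 := one_le_pow₀ hC1
    calc hx Q e b' r R N ≤ 1 := C.le1 _ _ _ _ _
      _ ≤ C.C * hx Q e b r R N := k1
      _ ≤ C.C ^ 4 * (C.C * hx Q e b r R N) := by
        have : 0 ≤ C.C * hx Q e b r R N := mul_nonneg hC0.le (C.nn _ _ _ _ _)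
        nlinarith
      _ = _ := by ring

/-- **All points are comparable.** -/
theorem Kb.cmp (hM : 2 ≤ M) (b b' : ℤ × ℤ) {N' : ℤ} (hr : C.s ≤ r) (hrR : r ≤ R)
    (hN : C.K * R ≤ N) (hN' : C.K * R ≤ N') :
    hx Q e b r R N ≤ C.C ^ 6 * hx Q e b' r R N' := by
  have hC0 := C.C0
  have hC1 := C.hC
  have key : hx Q e b r R N ≤ C.C ^ 5 * hx Q e b' r R N := by
    rcases Int.even_or_odd ((b'.1 - b.1) + (b'.2 - b.2)) with h | h
    · have k1 := hx_even (e := e) (r := r) (R := R) (N := N) C.hQ h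
      have k2 : (1 : ℝ) ≤ C.C ^ 5 := one_le_pow₀ hC1
      have k3 := C.nn e b' r R N
      nlinarith
    · have k1 : hx Q e b r R N ≤ hx Q e (b'.1 + 1, b'.2) r R N := by
        refine hx_even C.hQ ?_
        rw [Int.even_iff]
        rw [Int.odd_iff] at h
        dsimp only
        omega
      exact k1.trans (C.shift hM rfl (by dsimp only; omega) (by dsimp only; omega) hr hrR hN)
  have k2 := C.env (e := e) (b := b') hr hrR hN hN'
  calc hx Q e b r R N ≤ C.C ^ 5 * hx Q e b' r R N := key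
    _ ≤ C.C ^ 5 * (C.C * hx Q e b' r R N') := mul_le_mul_of_nonneg_left k2 (by positivity)
    _ = _ := by ring

end Vale.Agent.P167.H692.B
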