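import Vale.Agent.P167.H692.B.Hx

/-!
# P167, general `q`, block BETA: the sum in windows of bounded length
-/

set_option autoImplicit false

namespace Vale.Agent.P167.H692.B

open Finset Relation Vale.Agent.P167.FK Vale.Agent.P167.FKA Vale.Agent.P167.QM
open Vale.Agent.P167.H192.TA (Xc Pw dq sr)
open Vale.Agent.P167.H192.Q (SRSW Xc_restrict)
open Vale.Agent.P167.H469 (hx)
open Vale.Agent.P167.H452.BE (XE R3 ta S_BE)
open Vale.Agent.P167.H436.ND (Win Bp Ex0)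

variable {Q : ℝ} {b : ℤ × ℤ} {r R N M : ℤ}

theorem ple (hM : 2 ≤ M) {i j : ℕ} : M ^ i ≤ M ^ j ↔ i ≤ j :=
  pow_le_pow_iff_right₀ (by omega)

theorem ppos (hM : 2 ≤ M) (i : ℕ) : 1 ≤ M ^ i := one_le_pow₀ (by omega)

theorem lt_mpow (hM : 2 ≤ M) (i : ℕ) : (i : ℤ) < M ^ i := by
  have h1 : i < M.toNat ^ i := Nat.lt_pow_self (by omega)
  have h2 : ((M.toNat ^ i : ℕ) : ℤ) = M ^ i := by
    push_cast
    rw [Int.toNat_of_nonneg (by omega)]
  rw [← h2]
  exact_mod_cast h1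

/-- The sum between the scales `M ^ i` and `M ^ j`. -/
noncomputable def Sn (Q : ℝ) (M : ℤ) (b : ℤ × ℤ) (N : ℤ) (i j : ℕ) : ℝ :=
  hx Q false b (M ^ i) (M ^ j) N +
    ∑ s ∈ Icc i j, hx Q true b (M ^ i) (M ^ s) N * hx Q false b (M ^ s) (M ^ j) N

theorem ss_eq (hM : 2 ≤ M) {i j : ℕ} :
    H452.BE.SS Q b (M ^ i) (M ^ j) N M = Sn Q M b N i j := by
  unfold H452.BE.SS Sn
  congr 1
  refine Finset.sum_nbij' (fun t => i + t) (fun s => s - i) ?_ ?_ ?_ ?_ ?_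
  · intro t ht
    rw [Finset.mem_filter] at ht
    have h1 : M ^ (t + i) ≤ M ^ j := by rw [pow_add]; exact ht.2
    rw [ple hM] at h1
    rw [Finset.mem_Icc]
    omega
  · intro s hs
    rw [Finset.mem_Icc] at hs
    rw [Finset.mem_filter, Finset.mem_range]
    have h1 := lt_mpow hM j
    refine ⟨by omega, ?_⟩
    rw [← pow_add, ple hM]
    omega
  · intro t _
    omega
  · intro s hs
    rw [Finset.mem_Icc] at hs
    omega
  · intro t _
    rw [← pow_add, add_comm t i]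

theorem Sn_nonneg (C : Kb Q M) (i j : ℕ) : 0 ≤ Sn Q M b N i j :=
  add_nonneg (C.nn _ _ _ _ _) (Finset.sum_nonneg fun _ _ => mul_nonneg (C.nn _ _ _ _ _) (C.nn _ _ _ _ _))

/-- Comparison of the sums at different points. -/
theorem Sn_cmp (C : Kb Q M) (hM : 2 ≤ M) (b b' : ℤ × ℤ) {N' : ℤ} {i j : ℕ} (hi : C.s ≤ M ^ i)
    (hij : i ≤ j) (hN : C.K * M ^ j ≤ N) (hN' : C.K * M ^ j ≤ N') :
    Sn Q M b N i j ≤ C.C ^ 12 * Sn Q M b' N' i j := by
  have hC0 := C.C0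
  have hC1 := C.hC
  have hK := C.hK
  have h6 : C.C ^ 6 ≤ C.C ^ 12 := pow_le_pow_right₀ hC1 (by norm_num)
  have hmon : ∀ {a c : ℕ} {X : ℤ}, a ≤ c → C.K * M ^ c ≤ X → C.K * M ^ a ≤ X := fun h1 h2 =>
    (mul_le_mul_of_nonneg_left ((ple hM).2 h1) (by omega)).trans h2
  unfold Sn
  rw [mul_add]
  refine add_le_add ?_ ?_
  · have k1 := C.cmp (e := false) hM b b' hi ((ple hM).2 hij) hN hN'
    exact k1.trans (mul_le_mul_of_nonneg_right h6 (C.nn _ _ _ _ _))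
  · rw [Finset.mul_sum]
    refine Finset.sum_le_sum fun s hs => ?_
    rw [Finset.mem_Icc] at hs
    have k1 := C.cmp (e := true) hM b b' hi ((ple hM).2 hs.1) (hmon hs.2 hN) (hmon hs.2 hN')
    have k2 := C.cmp (e := false) hM b b' (hi.trans ((ple hM).2 hs.1)) ((ple hM).2 hs.2) hN hN'
    calc hx Q true b (M ^ i) (M ^ s) N * hx Q false b (M ^ s) (M ^ j) N
        ≤ (C.C ^ 6 * hx Q true b' (M ^ i) (M ^ s) N') *
          (C.C ^ 6 * hx Q false b' (M ^ s) (M ^ j) N') :=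
          mul_le_mul k1 k2 (C.nn _ _ _ _ _) (mul_nonneg (by positivity) (C.nn _ _ _ _ _))
      _ = _ := by ring

/-- Short windows. -/
theorem short (C : Kb Q M) (hM : 2 ≤ M) (b : ℤ × ℤ) (k : ℕ) : ∀ i : ℕ, C.s ≤ M ^ i →
    C.K * M ^ (i + k) ≤ N → 1 ≤ C.C ^ (2 * k + 1) * hx Q false b (M ^ i) (M ^ (i + k)) N := by
  have hC0 := C.C0
  have hC1 := C.hC
  have hK := C.hK
  induction k with
  | zero =>
    intro i hi hN
    have h1 := ppos hM i
    have := C.a8 false b (M ^ i) (M ^ i) N hi le_rfl (by nlinarith) hN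
    simpa using this
  | succ k ih =>
    intro i hi hN
    have h0 : M ^ (i + k) ≤ M ^ (i + (k + 1)) := (ple hM).2 (by omega)
    have hN' : C.K * M ^ (i + k) ≤ N := (mul_le_mul_of_nonneg_left h0 (by omega)).trans hN
    have h1 := ih i hi hN'
    have h2 := C.a8 false b (M ^ (i + k)) (M ^ (i + (k + 1))) N (hi.trans ((ple hM).2 (by omega))) h0
      (le_of_eq (by ring)) hN
    have h3 := C.a5 false b (M ^ i) (M ^ (i + k)) (M ^ (i + (k + 1))) N hi ((ple hM).2 (by omega)) h0 hN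
    have n1 := C.nn false b (M ^ i) (M ^ (i + k)) N
    have n2 := C.nn false b (M ^ (i + k)) (M ^ (i + (k + 1))) N
    calc (1 : ℝ) = 1 * 1 := (one_mul 1).symm
      _ ≤ (C.C ^ (2 * k + 1) * hx Q false b (M ^ i) (M ^ (i + k)) N) *
          (C.C * hx Q false b (M ^ (i + k)) (M ^ (i + (k + 1))) N) :=
          mul_le_mul h1 h2 zero_le_one (mul_nonneg (by positivity) n1)
      _ = C.C ^ (2 * k + 1) * C.C * (hx Q false b (M ^ i) (M ^ (i + k)) N *
          hx Q false b (M ^ (i + k)) (M ^ (i + (k + 1))) N) := by ring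
      _ ≤ C.C ^ (2 * k + 1) * C.C * (C.C * hx Q false b (M ^ i) (M ^ (i + (k + 1))) N) :=
          mul_le_mul_of_nonneg_left h3 (by positivity)
      _ = _ := by ring

theorem Sn_le (C : Kb Q M) (i j : ℕ) : Sn Q M b N i j ≤ (j + 1 - i : ℕ) + 1 := by
  unfold Sn
  have h1 : ∑ s ∈ Icc i j, hx Q true b (M ^ i) (M ^ s) N * hx Q false b (M ^ s) (M ^ j) N ≤
      ∑ _s ∈ Icc i j, (1 : ℝ) := by
    refine Finset.sum_le_sum fun s _ => ?_
    calc _ ≤ (1 : ℝ) * 1 := mul_le_mul (C.le1 _ _ _ _ _) (C.le1 _ _ _ _ _) (C.nn _ _ _ _ _) zero_le_one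
      _ = 1 := one_mul 1
  rw [Finset.sum_const, Nat.card_Icc, nsmul_eq_mul, mul_one] at h1
  have h2 := C.le1 false b (M ^ i) (M ^ j) N
  linarith

end Vale.Agent.P167.H692.B
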