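import Vale.Agent.P167.H692.B.Sw

/-!
# P167, general `q`, block BETA: the sum in windows, from `S_BE` and `S_pow`
-/

set_option autoImplicit false

namespace Vale.Agent.P167.H692.B

open Finset Relation Vale.Agent.P167.FK Vale.Agent.P167.FKA Vale.Agent.P167.QM
open Vale.Agent.P167.H192.TA (Xc Pw dq sr)
open Vale.Agent.P167.H469 (hx)
open Vale.Agent.P167.H452.BE (XE R3 ta S_BE)
open Vale.Agent.P167.H436.ND (Win Bp Ex0)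

variable {θ : ℝ} {P : MeasureTheory.Measure Cfg} {M K : ℤ}

/-- The body of `S_BE`. -/
def BEb (θ : ℝ) (P : MeasureTheory.Measure Cfg) (M K : ℤ) (c C : ℝ) (a₀ L : ℤ) : Prop :=
  ∀ (n : ℕ) (q : ZMod n → ℤ × ℤ) (D : Finset (ℤ × ℤ)) (l : ℕ) (R : ℤ), Win q D l R →
  ∀ a : Fin 3 → ℤ, R3 a₀ K R a → a 1 ≤ 2 * K * a 0 → L * a 2 ≤ R →
  ∀ f : Fin 3 → ℤ × ℤ → ℝ, (∀ i, Bp 1000 (q l) (a i) (f i)) → ∀ N : ℤ, L * a 2 ≤ N →
    c * H452.BE.SS (2 * Real.cos θ) (q l) (a 1) (a 2) N M ≤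
      Ex (2 * Real.cos θ) D eta0 (XE θ q D f) * Real.exp (Ex0 θ P (ta θ) a) ∧
    Ex (2 * Real.cos θ) D eta0 (XE θ q D f) * Real.exp (Ex0 θ P (ta θ) a) ≤
      C * H452.BE.SS (2 * Real.cos θ) (q l) (a 1) (a 2) N M

/-- The body of `S_pow`. -/
def Pob (θ : ℝ) (P : MeasureTheory.Measure Cfg) (M K : ℤ) (lam c C : ℝ) (k : ℕ) (L r : ℤ) : Prop :=
  ∃ (n : ℕ) (q : ZMod n → ℤ × ℤ) (D : Finset (ℤ × ℤ)) (l : ℕ) (R : ℤ) (a : Fin 3 → ℤ)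
    (f : Fin 3 → ℤ × ℤ → ℝ), Win q D l R ∧ R3 1 K R a ∧ a 1 = r ∧ a 2 = M ^ k * r ∧
    a 1 ≤ 2 * K * a 0 ∧ L * a 2 ≤ R ∧ (∀ i, Bp 1000 (q l) (a i) (f i)) ∧
    c * lam ^ k ≤ Ex (2 * Real.cos θ) D eta0 (XE θ q D f) * Real.exp (Ex0 θ P (ta θ) a) ∧
    Ex (2 * Real.cos θ) D eta0 (XE θ q D f) * Real.exp (Ex0 θ P (ta θ) a) ≤ C * lam ^ k

theorem long (hM : 2 ≤ M) (hK : 1 ≤ K) (C : Kb (2 * Real.cos θ) M) {lam c C' cp Cp : ℝ}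
    {a₀ L : ℤ} (hL : 1 ≤ L) (hc : 0 < c) (hC' : 0 < C') (hBE : BEb θ P M K c C' a₀ L) {i k : ℕ}
    (hp : Pob θ P M K lam cp Cp k L (M ^ i)) (hi : C.s ≤ M ^ i) (hi' : 2 * K * a₀ ≤ M ^ i)
    (b : ℤ × ℤ) {N : ℤ} (hN : (C.K + L) * M ^ (i + k) ≤ N) :
    cp * lam ^ k ≤ C' * (C.C ^ 12 * Sn (2 * Real.cos θ) M b N i (i + k)) ∧
      c * Sn (2 * Real.cos θ) M b N i (i + k) ≤ C.C ^ 12 * (Cp * lam ^ k) := by
  obtain ⟨n, q, D, l, R, a, f, h1, h2, h3, h4, h5, h6, h7, h8, h9⟩ := hp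
  have hC0 := C.C0
  have hKk := C.hK
  have hpp := ppos hM (i + k)
  have e2 : a 2 = M ^ (i + k) := by rw [h4, pow_add]; ring
  have hN1 : C.K * M ^ (i + k) ≤ N := by nlinarith
  have hN2 : L * a 2 ≤ N := by rw [e2]; nlinarith
  have h2' : R3 a₀ K R a := ⟨by
    by_contra hcon
    push Not at hcon
    have : 2 * K * a 0 < 2 * K * a₀ := by nlinarith
    omega, h2.low, h2.gap, h2.top⟩
  obtain ⟨g1, g2⟩ := hBE n q D l R h1 a h2' h5 h6 f h7 N hN2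
  rw [e2, h3, ss_eq hM] at g1 g2
  have k1 := Sn_cmp C hM (q l) b (N := N) (N' := N) hi (Nat.le_add_right i k) hN1 hN1
  have k2 := Sn_cmp C hM b (q l) (N := N) (N' := N) hi (Nat.le_add_right i k) hN1 hN1
  constructor
  · exact h8.trans (g2.trans (mul_le_mul_of_nonneg_left k1 hC'.le))
  · calc c * Sn (2 * Real.cos θ) M b N i (i + k)
        ≤ c * (C.C ^ 12 * Sn (2 * Real.cos θ) M (q l) N i (i + k)) :=
          mul_le_mul_of_nonneg_left k2 hc.le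
      _ = C.C ^ 12 * (c * Sn (2 * Real.cos θ) M (q l) N i (i + k)) := by ring
      _ ≤ C.C ^ 12 * (Cp * lam ^ k) :=
          mul_le_mul_of_nonneg_left (g1.trans h9) (by positivity)

/-- **The sum in windows.** -/
theorem window (hM : 2 ≤ M) (hK : 1 ≤ K) (C : Kb (2 * Real.cos θ) M)
    {L : ℤ} (hL : 1 ≤ L)
    (hB : ∃ (c C : ℝ) (a₀ : ℤ), 0 < c ∧ 0 < C ∧ BEb θ P M K c C a₀ L)
    (hP : ∃ (lam c C : ℝ) (k₁ : ℕ), 0 < lam ∧ 0 < c ∧ 0 < C ∧ ∀ k : ℕ, k₁ ≤ k →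
      ∃ r₁ : ℤ, ∀ r : ℤ, r₁ ≤ r → Pob θ P M K lam c C k L r) :
    ∃ (lam C1 : ℝ) (K' : ℤ), 0 < lam ∧ 1 ≤ C1 ∧ C.K ≤ K' ∧ ∀ Kw : ℕ, ∃ i0 : ℕ, C.s ≤ M ^ i0 ∧
      ∀ (b : ℤ × ℤ) (N : ℤ) (i j : ℕ), i0 ≤ i → i ≤ j → j ≤ i + Kw → K' * M ^ j ≤ N →
        C1⁻¹ * lam ^ (j - i) ≤ Sn (2 * Real.cos θ) M b N i j ∧
        Sn (2 * Real.cos θ) M b N i j ≤ C1 * lam ^ (j - i) := by
  obtain ⟨c, C', a₀, hc, hC', hBE⟩ := hB
  obtain ⟨lam, cp, Cp, k₁, hlam, hcp, hCp, hpow⟩ := hP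
  have hC0 := C.C0
  have hC1 := C.hC
  obtain ⟨Λ, hΛ⟩ : ∃ Λ : ℝ, Λ = max lam lam⁻¹ := ⟨_, rfl⟩
  have hΛ1 : 1 ≤ Λ := by
    rw [hΛ]
    rcases le_total 1 lam with h | h
    · exact h.trans (le_max_left _ _)
    · exact (one_le_inv_iff₀.2 ⟨hlam, h⟩).trans (le_max_right _ _)
  have hΛa : lam ≤ Λ := by rw [hΛ]; exact le_max_left _ _
  have hΛb : 1 ≤ Λ * lam := by
    have : lam⁻¹ ≤ Λ := by rw [hΛ]; exact le_max_right _ _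
    calc (1 : ℝ) = lam⁻¹ * lam := (inv_mul_cancel₀ hlam.ne').symm
      _ ≤ Λ * lam := mul_le_mul_of_nonneg_right this hlam.le
  obtain ⟨t1, ht1⟩ : ∃ t1 : ℝ, t1 = C.C ^ 12 * Cp / c := ⟨_, rfl⟩
  obtain ⟨t2, ht2⟩ : ∃ t2 : ℝ, t2 = C.C ^ 12 * C' / cp := ⟨_, rfl⟩
  obtain ⟨t3, ht3⟩ : ∃ t3 : ℝ, t3 = ((k₁ : ℝ) + 3) * Λ ^ k₁ := ⟨_, rfl⟩
  obtain ⟨t4, ht4⟩ : ∃ t4 : ℝ, t4 = C.C ^ (2 * k₁ + 1) * Λ ^ k₁ := ⟨_, rfl⟩
  have p1 : 0 < t1 := by rw [ht1]; positivity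
  have p2 : 0 < t2 := by rw [ht2]; positivity
  have p3 : 0 < t3 := by rw [ht3]; positivity
  have p4 : 0 < t4 := by rw [ht4]; positivity
  obtain ⟨C1, hC1d⟩ : ∃ C1 : ℝ, C1 = 1 + t1 + t2 + t3 + t4 := ⟨_, rfl⟩
  have hC10 : 0 < C1 := by linarith
  refine ⟨lam, C1, C.K + L, hlam, by linarith, by omega, fun Kw => ?_⟩
  choose! r1 hr1 using fun (k : ℕ) (hk : k₁ ≤ k) => hpow k hk
  obtain ⟨i0, hi0⟩ : ∃ i0 : ℕ, i0 = C.s.toNat + (2 * K * a₀).toNat +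
    ∑ k ∈ range (Kw + 1), (r1 k).toNat := ⟨_, rfl⟩
  have hbig : ∀ i, i0 ≤ i → C.s ≤ M ^ i ∧ 2 * K * a₀ ≤ M ^ i ∧ ∀ k ≤ Kw, r1 k ≤ M ^ i := by
    intro i hi
    have h1 := lt_mpow hM i
    refine ⟨by omega, by omega, fun k hk => ?_⟩
    have h2 : (r1 k).toNat ≤ ∑ k ∈ range (Kw + 1), (r1 k).toNat :=
      Finset.single_le_sum (f := fun k => (r1 k).toNat) (fun _ _ => Nat.zero_le _)
        (Finset.mem_range.2 (by omega))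
    omega
  refine ⟨i0, (hbig i0 le_rfl).1, fun b N i j hi hij hj hN => ?_⟩
  obtain ⟨hs, hKa, hr⟩ := hbig i hi
  obtain ⟨k, rfl⟩ : ∃ k, j = i + k := ⟨j - i, by omega⟩
  have ek : i + k - i = k := by omega
  rw [ek]
  have hlk : 0 < lam ^ k := pow_pos hlam k
  have hSn := Sn_nonneg (b := b) (N := N) C i (i + k)
  by_cases hk : k₁ ≤ k
  · obtain ⟨g1, g2⟩ := long hM hK C hL hc hC' hBE (hr1 k hk (M ^ i) (hr k (by omega))) hs hKa b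
      (N := N) hN
    constructor
    · rw [inv_mul_le_iff₀ hC10]
      have h1 : lam ^ k ≤ t2 * Sn (2 * Real.cos θ) M b N i (i + k) := by
        rw [ht2, div_mul_eq_mul_div, le_div_iff₀ hcp]
        linarith
      exact h1.trans (mul_le_mul_of_nonneg_right (by linarith) hSn)
    · have h1 : Sn (2 * Real.cos θ) M b N i (i + k) ≤ t1 * lam ^ k := by
        rw [ht1, div_mul_eq_mul_div, le_div_iff₀ hc]
        linarith
      exact h1.trans (mul_le_mul_of_nonneg_right (by linarith) hlk.le)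
  · push Not at hk
    have hN1 : C.K * M ^ (i + k) ≤ N := by
      have := ppos hM (i + k)
      nlinarith
    have h1 := short C hM b k i hs hN1
    have h2 := Sn_le (b := b) (N := N) C i (i + k)
    have e1 : i + k + 1 - i = k + 1 := by omega
    rw [e1] at h2
    have h3 : hx (2 * Real.cos θ) false b (M ^ i) (M ^ (i + k)) N ≤
        Sn (2 * Real.cos θ) M b N i (i + k) :=
      le_add_of_nonneg_right (Finset.sum_nonneg fun _ _ =>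
        mul_nonneg (C.nn _ _ _ _ _) (C.nn _ _ _ _ _))
    have n1 := C.nn false b (M ^ i) (M ^ (i + k)) N
    constructor
    · rw [inv_mul_le_iff₀ hC10]
      have h4 : lam ^ k ≤ Λ ^ k₁ :=
        (pow_le_pow_left₀ hlam.le hΛa k).trans (pow_le_pow_right₀ hΛ1 hk.le)
      have h5 : C.C ^ (2 * k + 1) ≤ C.C ^ (2 * k₁ + 1) := pow_le_pow_right₀ hC1 (by omega)
      calc lam ^ k ≤ Λ ^ k₁ * 1 := by rw [mul_one]; exact h4
        _ ≤ Λ ^ k₁ * (C.C ^ (2 * k + 1) * hx (2 * Real.cos θ) false b (M ^ i) (M ^ (i + k)) N) :=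
            mul_le_mul_of_nonneg_left h1 (by positivity)
        _ ≤ Λ ^ k₁ * (C.C ^ (2 * k₁ + 1) * Sn (2 * Real.cos θ) M b N i (i + k)) :=
            mul_le_mul_of_nonneg_left (mul_le_mul h5 h3 n1 (by positivity)) (by positivity)
        _ = t4 * Sn (2 * Real.cos θ) M b N i (i + k) := by rw [ht4]; ring
        _ ≤ _ := mul_le_mul_of_nonneg_right (by linarith) hSn
    · have h4 : 1 ≤ Λ ^ k₁ * lam ^ k := by
        have h5 : Λ ^ k ≤ Λ ^ k₁ := pow_le_pow_right₀ hΛ1 hk.le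
        calc (1 : ℝ) ≤ (Λ * lam) ^ k := one_le_pow₀ hΛb
          _ = Λ ^ k * lam ^ k := mul_pow _ _ _
          _ ≤ Λ ^ k₁ * lam ^ k := mul_le_mul_of_nonneg_right h5 hlk.le
      have h6 : (k : ℝ) ≤ k₁ := by exact_mod_cast hk.le
      push_cast at h2
      calc Sn (2 * Real.cos θ) M b N i (i + k) ≤ ((k₁ : ℝ) + 3) * 1 := by linarith
        _ ≤ ((k₁ : ℝ) + 3) * (Λ ^ k₁ * lam ^ k) := mul_le_mul_of_nonneg_left h4 (by positivity)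
        _ = t3 * lam ^ k := by rw [ht3]; ring
        _ ≤ _ := mul_le_mul_of_nonneg_right (by linarith) hlk.le

end Vale.Agent.P167.H692.B
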